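import Mathlib

/-!
# Bounds for the Chebyshev function in a finite range, by a kernel computation
-/

namespace Vale.Agent.P021.H59

open Finset

/-- the primes up to `1000` -/
def ps : List ℕ :=
  [2, 3, 5, 7, 11, 13, 17, 19, 23, 29, 31, 37, 41, 43, 47, 53, 59, 61, 67, 71, 73, 79, 83, 89,
   97, 101, 103, 107, 109, 113, 127, 131, 137, 139, 149, 151, 157, 163, 167, 173, 179, 181,
   191, 193, 197, 199, 211, 223, 227, 229, 233, 239, 241, 251, 257, 263, 269, 271, 277, 281,
   283, 293, 307, 311, 313, 317, 331, 337, 347, 349, 353, 359, 367, 373, 379, 383, 389, 397,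
   401, 409, 419, 421, 431, 433, 439, 443, 449, 457, 461, 463, 467, 479, 487, 491, 499, 503,
   509, 521, 523, 541, 547, 557, 563, 569, 571, 577, 587, 593, 599, 601, 607, 613, 617, 619,
   631, 641, 643, 647, 653, 659, 661, 673, 677, 683, 691, 701, 709, 719, 727, 733, 739, 743,
   751, 757, 761, 769, 773, 787, 797, 809, 811, 821, 823, 827, 829, 839, 853, 857, 859, 863,
   877, 881, 883, 887, 907, 911, 919, 929, 937, 941, 947, 953, 967, 971, 977, 983, 991, 997]

/-- the product of the primes up to `1000` -/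
def PP : ℕ := ps.foldr (fun a b => a * b) 1

theorem ps_prime : ∀ p ∈ ps, 2 ≤ p ∧ p ≤ 1000 ∧
    ∀ d ∈ [2, 3, 5, 7, 11, 13, 17, 19, 23, 29, 31], p % d = 0 → p = d := by
  decide +kernel

theorem ps_complete : ∀ n < 1001, n ∈ ps ∨ n < 2 ∨
    ∃ d ∈ [2, 3, 5, 7, 11, 13, 17, 19, 23, 29, 31], n % d = 0 ∧ d < n := by
  decide +kernel

theorem ps_nodup : ps.Nodup := by decide +kernel

theorem prime_of_mem {p : ℕ} (hp : p ∈ ps) : p.Prime := by
  obtain ⟨h2, h1000, hd⟩ := ps_prime p hp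
  by_contra hnp
  have hm := Nat.minFac_prime (n := p) (by omega)
  have hsq : p.minFac ^ 2 ≤ p := Nat.minFac_sq_le_self (by omega) hnp
  have h31 : p.minFac ≤ 31 := by
    by_contra h
    have : 32 ≤ p.minFac := by omega
    nlinarith
  have hmem : p.minFac ∈ [2, 3, 5, 7, 11, 13, 17, 19, 23, 29, 31] := by
    have h2' := hm.two_le
    generalize p.minFac = m at hm h31 h2'
    interval_cases m <;> first | decide | (exfalso; revert hm; norm_num)
  have := hd _ hmem (Nat.mod_eq_zero_of_dvd (Nat.minFac_dvd p))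
  rw [← this] at hsq
  nlinarith

theorem mem_of_prime {p : ℕ} (hp : p.Prime) (h : p ≤ 1000) : p ∈ ps := by
  rcases ps_complete p (by omega) with h1 | h1 | ⟨d, hd, h1, h2⟩
  · exact h1
  · exact absurd hp.two_le (by omega)
  · exfalso
    have hdvd : d ∣ p := Nat.dvd_of_mod_eq_zero h1
    rcases (Nat.dvd_prime hp).1 hdvd with h3 | h3
    · subst h3
      revert hd
      decide
    · omega

theorem primesLE_eq : Nat.primesLE 1000 = ps.toFinset := by
  ext p
  rw [Nat.mem_primesLE, List.mem_toFinset]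
  exact ⟨fun h => mem_of_prime h.2 h.1, fun h => ⟨(ps_prime p h).2.1, prime_of_mem h⟩⟩

theorem dvd_PP {p : ℕ} (hp : p ∈ ps) : p ∣ PP := by
  have : PP = ps.prod := rfl
  rw [this]
  exact List.dvd_prod hp

theorem prime_dvd_PP {p : ℕ} (hp : p.Prime) (h : p ∣ PP) : p ≤ 1000 := by
  have h1 : PP = ps.prod := rfl
  rw [h1] at h
  obtain ⟨a, ha, hpa⟩ := (Prime.dvd_prod_iff hp.prime).1 h
  have h2 := (Nat.prime_dvd_prime_iff_eq hp (prime_of_mem ha)).1 hpa
  rw [h2]
  exact (ps_prime a ha).2.1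

/-- primality test -/
theorem prime_iff {n : ℕ} (h1 : 1000 < n) (h2 : n < 1001 * 1001) :
    n.Prime ↔ Nat.gcd n PP = 1 := by
  constructor
  · intro hn
    rw [← Nat.coprime_iff_gcd_eq_one, Nat.Prime.coprime_iff_not_dvd hn]
    intro h
    have := prime_dvd_PP hn h
    omega
  · intro hg
    by_contra hnp
    have hm := Nat.minFac_prime (n := n) (by omega)
    have hsq : n.minFac ^ 2 ≤ n := Nat.minFac_sq_le_self (by omega) hnp
    have h31 : n.minFac ≤ 1000 := by
      by_contra h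
      have : 1001 ≤ n.minFac := by omega
      nlinarith
    have h3 : n.minFac ∣ Nat.gcd n PP :=
      Nat.dvd_gcd (Nat.minFac_dvd n) (dvd_PP (mem_of_prime hm h31))
    rw [hg] at h3
    exact hm.one_lt.ne' (Nat.dvd_one.1 h3)

/-- leaf -/
def ee (m : ℕ) : ℕ := bif Nat.beq (Nat.gcd m PP) 1 then m else 1

/-- product of the primes of `[a, a + 2 ^ k)` as a binary tree -/
def TT : ℕ → ℕ → ℕ
  | 0, a => ee a
  | k + 1, a => TT k a * TT k (a + 2 ^ k)

/-- the product of the primes in `[1001, a)` -/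
noncomputable def MM (a : ℕ) : ℕ := ∏ m ∈ Ico 1001 a, if m.Prime then m else 1

theorem ee_eq {m : ℕ} (h1 : 1000 < m) (h2 : m < 1001 * 1001) :
    ee m = if m.Prime then m else 1 := by
  unfold ee
  by_cases h : m.Prime
  · rw [if_pos h, (prime_iff h1 h2).1 h]
    rfl
  · rw [if_neg h]
    have h3 : Nat.gcd m PP ≠ 1 := fun h4 => h ((prime_iff h1 h2).2 h4)
    have h4 : Nat.beq (Nat.gcd m PP) 1 = false := by
      rw [← Bool.not_eq_true]
      intro h5
      exact h3 (Nat.eq_of_beq_eq_true h5)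
    rw [h4]
    rfl

theorem TT_eq (k : ℕ) : ∀ a, 1000 < a → a + 2 ^ k ≤ 1001 * 1001 →
    TT k a = ∏ m ∈ Ico a (a + 2 ^ k), if m.Prime then m else 1 := by
  induction k with
  | zero =>
    intro a h1 h2
    rw [TT, pow_zero, Finset.prod_Ico_succ_top (le_refl a), Ico_self, prod_empty, one_mul]
    exact ee_eq h1 (by omega)
  | succ k ih =>
    intro a h1 h2
    have e : 2 ^ (k + 1) = 2 ^ k + 2 ^ k := by ring
    have hp : 0 < 2 ^ k := by positivity
    rw [TT, ih a h1 (by omega), ih (a + 2 ^ k) (by omega) (by omega), e, ← add_assoc]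
    rw [Finset.prod_Ico_consecutive _ (by omega) (by omega)]

theorem MM_step {a k : ℕ} (h1 : 1001 ≤ a) (h2 : a + 2 ^ k ≤ 1001 * 1001) :
    MM (a + 2 ^ k) = MM a * TT k a := by
  have hp : 0 < 2 ^ k := by positivity
  rw [TT_eq k a (by omega) h2, MM, MM, Finset.prod_Ico_consecutive _ h1 (by omega)]

theorem MM_start : MM 1001 = 1 := by
  rw [MM, Ico_self, prod_empty]

/-- largest power -/
def pw (p n : ℕ) : ℕ → ℕ → ℕ
  | 0, c => c
  | k + 1, c => bif Nat.ble (c * p) n then pw p n k (c * p) else c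

theorem pw_spec {p n : ℕ} (hp : 2 ≤ p) : ∀ k j : ℕ, p ^ j ≤ n → n < p ^ (j + k + 1) →
    pw p n k (p ^ j) = p ^ Nat.log p n := by
  intro k
  induction k with
  | zero =>
    intro j h1 h2
    rw [pw, Nat.log_eq_of_pow_le_of_lt_pow h1 h2]
  | succ k ih =>
    intro j h1 h2
    rw [pw, ← pow_succ]
    by_cases h : p ^ (j + 1) ≤ n
    · rw [Nat.ble_eq_true_of_le h, cond_true]
      exact ih (j + 1) h (by rwa [show j + 1 + k + 1 = j + (k + 1) + 1 by ring])
    · have h3 : Nat.ble (p ^ (j + 1)) n = false := by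
        rw [← Bool.not_eq_true]
        intro h5
        exact h (Nat.le_of_ble_eq_true h5)
      rw [h3, cond_false, Nat.log_eq_of_pow_le_of_lt_pow h1 (by omega)]

/-- the contribution of the primes up to `1000` -/
def QQ (n : ℕ) : ℕ := ps.foldr (fun p b => pw p n 20 p * b) 1

theorem QQ_eq {n : ℕ} (h1 : 1000 ≤ n) (h2 : n ≤ 1001 * 1001) :
    QQ n = ∏ p ∈ Nat.primesLE 1000, p ^ Nat.log p n := by
  rw [primesLE_eq, List.prod_toFinset _ ps_nodup]
  have h : ∀ l : List ℕ, (∀ p ∈ l, 2 ≤ p ∧ p ≤ 1000) →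
      l.foldr (fun p b => pw p n 20 p * b) 1 = (l.map fun p => p ^ Nat.log p n).prod := by
    intro l
    induction l with
    | nil => intro _; rfl
    | cons p l ih =>
      intro hl
      have hp := hl p (by simp)
      rw [List.foldr_cons, List.map_cons, List.prod_cons, ih fun q hq => hl q (by simp [hq])]
      congr 1
      have := pw_spec (n := n) hp.1 20 1 (by rw [pow_one]; omega) (by
        calc n < 2 ^ 22 := by omega
          _ ≤ p ^ 22 := Nat.pow_le_pow_left hp.1 22)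
      rwa [pow_one] at this
  exact h ps fun p hp => ⟨(ps_prime p hp).1, (ps_prime p hp).2.1⟩

theorem lcm_eq {n : ℕ} (h1 : 1000 ≤ n) (h2 : n < 1001 * 1001) :
    Nat.lcmUpto n = QQ n * MM (n + 1) := by
  rw [Nat.lcmUpto_eq_prod_pow_log, QQ_eq h1 h2.le, MM]
  have e1 : ∏ m ∈ Ico 1001 (n + 1), (if m.Prime then m else 1) =
      ∏ p ∈ (Ico 1001 (n + 1)).filter Nat.Prime, p ^ Nat.log p n := by
    rw [← Finset.prod_filter]
    apply Finset.prod_congr rfl
    intro p hp
    rw [mem_filter, mem_Ico] at hp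
    rw [Nat.log_eq_of_pow_le_of_lt_pow (m := 1) (by rw [pow_one]; omega) (by
      calc n < 1001 * 1001 := h2
        _ ≤ p * p := Nat.mul_le_mul hp.1.1 hp.1.1
        _ = p ^ (1 + 1) := by ring), pow_one]
  rw [e1, ← Finset.prod_union]
  · apply Finset.prod_congr _ fun _ _ => rfl
    ext p
    rw [mem_union, Nat.mem_primesLE, Nat.mem_primesLE, mem_filter, mem_Ico]
    constructor
    · rintro ⟨ha, hb⟩
      by_cases hc : p ≤ 1000
      · exact Or.inl ⟨hc, hb⟩
      · exact Or.inr ⟨⟨by omega, by omega⟩, hb⟩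
    · rintro (⟨ha, hb⟩ | ⟨⟨ha, ha'⟩, hb⟩)
      · exact ⟨by omega, hb⟩
      · exact ⟨by omega, hb⟩
  · rw [Finset.disjoint_left]
    intro p hp hq
    rw [Nat.mem_primesLE] at hp
    rw [mem_filter, mem_Ico] at hq
    omega

theorem QQ_mono {a b : ℕ} (h1 : 1000 ≤ a) (hab : a ≤ b) (h2 : b ≤ 1001 * 1001) :
    QQ a ≤ QQ b := by
  rw [QQ_eq h1 (hab.trans h2), QQ_eq (h1.trans hab) h2]
  apply Finset.prod_le_prod' 
  intro p hp
  exact Nat.pow_le_pow_right (Nat.prime_of_mem_primesLE hp).pos (Nat.log_mono_right hab)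

theorem MM_mono {a b : ℕ} (hab : a ≤ b) : MM a ≤ MM b := by
  unfold MM
  apply Finset.prod_le_prod_of_subset_of_one_le' (Ico_subset_Ico_right hab)
  intro m hm _
  rw [mem_Ico] at hm
  split_ifs <;> omega

theorem le_psi {a : ℕ} (h1 : 1001 ≤ a) (h2 : a < 1001 * 1001) :
    Real.log ((QQ a * MM a : ℕ) : ℝ) ≤ Chebyshev.psi a := by
  rw [Chebyshev.psi_eq_log_lcmUpto, lcm_eq (by omega) h2]
  have h0 : 0 < QQ a * MM a := by
    have h3 := lcm_eq (n := a - 1) (by omega) (by omega)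
    have h4 := Nat.lcmUpto_pos (a - 1)
    rw [h3, show a - 1 + 1 = a by omega] at h4
    have h5 := Nat.pos_of_mul_pos_right h4
    have h6 := QQ_mono (a := a - 1) (b := a) (by omega) (by omega) h2.le
    have h7 : 0 < QQ (a - 1) := Nat.pos_of_ne_zero fun h => by rw [h, zero_mul] at h4; omega
    have h8 : 0 < MM a := Nat.pos_of_ne_zero fun h => by rw [h, mul_zero] at h4; omega
    exact Nat.mul_pos (by omega) h8
  apply Real.log_le_log (by exact_mod_cast h0)
  exact_mod_cast Nat.mul_le_mul_left _ (MM_mono (by omega))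

theorem psi_le {b : ℕ} (h1 : 1002 ≤ b) (h2 : b ≤ 1001 * 1001) :
    Chebyshev.psi ((b - 1 : ℕ) : ℝ) ≤ Real.log ((QQ b * MM b : ℕ) : ℝ) := by
  rw [Chebyshev.psi_eq_log_lcmUpto]
  apply Real.log_le_log (by exact_mod_cast Nat.lcmUpto_pos _)
  rw [lcm_eq (by omega) (by omega), show b - 1 + 1 = b by omega]
  exact_mod_cast Nat.mul_le_mul_right _ (QQ_mono (by omega) (by omega) h2)

end Vale.Agent.P021.H59
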